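import Vale.Agent.P101.Bridge.Units

/-! P101: a pair with the relations gives a unital hom from `I(2,3)`; `I(2,3)` has no characters. -/

open scoped Kronecker ComplexOrder

namespace Vale.Agent.P101

namespace Bridge

variable {B : Type*} [CStarAlgebra B] (c s : B)

noncomputable def PL : Matrix (Fin 3) (Fin 3) ℂ →ₗ[ℂ] B :=
  (Mid (fK c s) (VV c s)).comp (cst (Fin 3)).toAlgHom.toLinearMap

noncomputable def PR : Matrix (Fin 2) (Fin 2) ℂ →ₗ[ℂ] B :=
  (Mid (fK c s) (UU c)).comp (cst (Fin 2)).toAlgHom.toLinearMap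

noncomputable def PM : Matrix I6 I6 C(ℝ, ℂ) →ₗ[ℂ] B := Mid (fK c s) (WW c s)

noncomputable def Phi (f : dimDrop23) : B :=
  fK c s cL * PL c s (bHom f) + fK c s cR * PR c s (aHom f) + fK c s cM * PM c s (FHom f)

variable {c s} (h : DimDropPair c s)
include h

lemma PL_mul (b b' : Matrix (Fin 3) (Fin 3) ℂ) :
    fK c s cL * (PL c s b * PL c s b') = fK c s cL * PL c s (b * b') := by
  show fK c s cL * (Mid _ _ (cst _ b) * Mid _ _ (cst _ b')) = _ * Mid _ _ (cst _ (b * b'))
  rw [map_mul]; exact mid_mul (fK_VV h) (hz_V h) _ _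

lemma PR_mul (b b' : Matrix (Fin 2) (Fin 2) ℂ) :
    fK c s cR * (PR c s b * PR c s b') = fK c s cR * PR c s (b * b') := by
  show fK c s cR * (Mid _ _ (cst _ b) * Mid _ _ (cst _ b')) = _ * Mid _ _ (cst _ (b * b'))
  rw [map_mul]; exact mid_mul (fK_UU h) (hz_U h) _ _

lemma PM_mul (X Y : Matrix I6 I6 C(ℝ, ℂ)) :
    fK c s cM * (PM c s X * PM c s Y) = fK c s cM * PM c s (X * Y) :=
  mid_mul (fK_WW h) (hz_W h) _ _

lemma cM_PL (b : Matrix (Fin 3) (Fin 3) ℂ) :
    fK c s cM * PL c s b = fK c s cM * PM c s (cst I6 (oneKron b)) := by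
  show fK c s cM * Mid _ _ (cst _ b) = fK c s cM * Mid _ _ (cst _ _)
  simp only [mid_cst, Finset.mul_sum, mul_smul_comm, cM_VV h]
  simp [oneKron, Fintype.sum_prod_type, Fin.sum_univ_two, Fin.sum_univ_three, mul_add, smul_add]
  abel

lemma cM_PR (a : Matrix (Fin 2) (Fin 2) ℂ) :
    fK c s cM * PR c s a = fK c s cM * PM c s (cst I6 (kronOne a)) := by
  show fK c s cM * Mid _ _ (cst _ a) = fK c s cM * Mid _ _ (cst _ _)
  simp only [mid_cst, Finset.mul_sum, mul_smul_comm, cM_UU h]
  simp [kronOne, sw, Equiv.swap_apply_def, Fintype.sum_prod_type, Fin.sum_univ_two,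
    Fin.sum_univ_three, mul_add, smul_add, Prod.ext_iff, Matrix.one_apply]
  abel

lemma PL_one : fK c s cL * PL c s (1 : Matrix (Fin 3) (Fin 3) ℂ) = fK c s cL := by
  show fK c s cL * Mid _ _ (cst (Fin 3) 1) = _
  rw [mid_cst]
  simp [Matrix.one_apply, sum_VV h, ← map_mul, cL_mul_h]

lemma PR_one : fK c s cR * PR c s (1 : Matrix (Fin 2) (Fin 2) ℂ) = fK c s cR := by
  show fK c s cR * Mid _ _ (cst (Fin 2) 1) = _
  rw [mid_cst]
  simp [Matrix.one_apply, sum_UU h, cR_phi h]

lemma PM_one : fK c s cM * PM c s 1 = fK c s cM := by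
  have e : cst I6 (oneKron 1) = 1 := by simp [oneKron]
  rw [← e, ← cM_PL h]
  show fK c s cM * Mid _ _ (cst (Fin 3) 1) = _
  rw [mid_cst]
  simp [Matrix.one_apply, sum_VV h, ← map_mul, cM_mul_h]

omit h in
lemma cL_PM (f : dimDrop23) :
    fK c s cL * PM c s (FHom f) = fK c s cL * PM c s (cst I6 (oneKron (bHom f))) :=
  mid_smul_congr (cL_F f)

omit h in
lemma cR_PM (f : dimDrop23) :
    fK c s cR * PM c s (FHom f) = fK c s cR * PM c s (cst I6 (kronOne (aHom f))) :=
  mid_smul_congr (cR_F f)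

omit h in
lemma sum_cuts (x : B) : x = fK c s cL * x + fK c s cR * x + fK c s cM * x := by
  rw [← add_mul, ← add_mul, ← map_add, ← map_add, cuts_sum, map_one, one_mul]

lemma cLM (f : dimDrop23) :
    fK c s cL * fK c s cM * PL c s (bHom f) = fK c s cL * fK c s cM * PM c s (FHom f) := by
  rw [mul_assoc, cM_PL h, ← mul_assoc, ((Commute.all cL cM).map (fK c s)).eq, mul_assoc,
    ← cL_PM, mul_assoc]

lemma cRM (f : dimDrop23) :
    fK c s cR * fK c s cM * PR c s (aHom f) = fK c s cR * fK c s cM * PM c s (FHom f) := by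
  rw [mul_assoc, cM_PR h, ← mul_assoc, ((Commute.all cR cM).map (fK c s)).eq, mul_assoc,
    ← cR_PM, mul_assoc]

omit h in
/-- The gluing computation. -/
lemma glue {a b m x x' X y y' Y z z' Z : B} (one : a + b + m = 1) (ab : a * b = 0) (ba : b * a = 0)
    (cam : m * a = a * m) (cbm : m * b = b * m)
    (cax : Commute a x) (cbx : Commute b x) (cmx : Commute m x) (cay : Commute a y)
    (cby : Commute b y) (cmy : Commute m y) (caz : Commute a z) (cbz : Commute b z)
    (cmz : Commute m z) (hx : a * (x * x') = a * X) (hy : b * (y * y') = b * Y)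
    (hz : m * (z * z') = m * Z) (hxz : a * m * x = a * m * z) (hxz' : a * m * x' = a * m * z')
    (hXZ : a * m * X = a * m * Z) (hyz : b * m * y = b * m * z)
    (hyz' : b * m * y' = b * m * z') (hYZ : b * m * Y = b * m * Z) :
    a * X + b * Y + m * Z = (a * x + b * y + m * z) * (a * x' + b * y' + m * z') := by
  have four : ∀ u v u' v' : B, Commute u' v → u * v * (u' * v') = u * u' * (v * v') := by
    intro u v u' v' hc
    rw [mul_assoc, ← mul_assoc v u' v', ← hc.eq]; simp only [mul_assoc]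
  have hamZ : a * m * (z * z') = a * m * Z := by rw [mul_assoc, hz, ← mul_assoc]
  have hbmZ : b * m * (z * z') = b * m * Z := by rw [mul_assoc, hz, ← mul_assoc]
  have e1 : a * m * (x * z') = a * m * Z := by rw [← mul_assoc, hxz, mul_assoc, hamZ]
  have e2 : m * a * (z * x') = a * m * Z := by
    rw [cam, ← mul_assoc, (caz.mul_left cmz).eq, mul_assoc, hxz', ← mul_assoc,
      ← (caz.mul_left cmz).eq, mul_assoc, hamZ]
  have e3 : b * m * (y * z') = b * m * Z := by rw [← mul_assoc, hyz, mul_assoc, hbmZ]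
  have e4 : m * b * (z * y') = b * m * Z := by
    rw [cbm, ← mul_assoc, (cbz.mul_left cmz).eq, mul_assoc, hyz', ← mul_assoc,
      ← (cbz.mul_left cmz).eq, mul_assoc, hbmZ]
  have l1 : a * X = a * a * (x * x') + a * m * Z := by
    rw [mul_assoc a a, hx, ← hXZ, ← mul_assoc]
    conv_lhs => rw [← mul_one a, ← one]
    simp only [mul_add, add_mul, ab, zero_mul, add_zero]
  have l2 : b * Y = b * b * (y * y') + b * m * Z := by
    rw [mul_assoc b b, hy, ← hYZ, ← mul_assoc]
    conv_lhs => rw [← mul_one b, ← one]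
    simp only [mul_add, add_mul, ba, zero_mul, zero_add]
  have l3 : m * Z = a * m * Z + b * m * Z + m * m * (z * z') := by
    rw [mul_assoc m m, hz, ← mul_assoc m m]
    conv_lhs => rw [← one_mul m, ← one]
    simp only [add_mul]
  simp only [mul_add, add_mul, four a x a x' cax, four a x b y' cbx, four a x m z' cmx,
    four b y a x' cay, four b y b y' cby, four b y m z' cmy, four m z a x' caz, four m z b y' cbz,
    four m z m z' cmz, ab, ba, zero_mul, e1, e2, e3, e4]
  rw [l1, l2, l3]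
  abel

lemma Phi_mul (f g : dimDrop23) : Phi c s (f * g) = Phi c s f * Phi c s g := by
  have hL : ∀ e b, Commute (fK c s e) (PL c s b) := fun e b => commute_mid (fK_VV h) e _
  have hR : ∀ e b, Commute (fK c s e) (PR c s b) := fun e b => commute_mid (fK_UU h) e _
  have hM : ∀ e b, Commute (fK c s e) (PM c s b) := fun e b => commute_mid (fK_WW h) e _
  refine glue ?_ ?_ ?_ ((Commute.all cM cL).map (fK c s)).eq ((Commute.all cM cR).map (fK c s)).eq
    (hL _ _) (hL _ _) (hL _ _) (hR _ _) (hR _ _) (hR _ _) (hM _ _) (hM _ _) (hM _ _)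
    ?_ ?_ ?_ (cLM h f) (cLM h g) (cLM h (f * g)) (cRM h f) (cRM h g) (cRM h (f * g))
  · rw [← map_add, ← map_add, cuts_sum, map_one]
  · rw [← map_mul, cL_mul_cR, map_zero]
  · rw [← map_mul, mul_comm, cL_mul_cR, map_zero]
  · rw [map_mul bHom]; exact PL_mul h _ _
  · rw [map_mul aHom]; exact PR_mul h _ _
  · rw [map_mul FHom]; exact PM_mul h _ _

lemma Phi_one : Phi c s 1 = 1 := by
  simp only [Phi, map_one, PL_one h, PR_one h, PM_one h]
  rw [← map_add, ← map_add, cuts_sum, map_one]

lemma Phi_star (f : dimDrop23) : Phi c s (star f) = star (Phi c s f) := by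
  have hs : ∀ e : C(ℝ, ℂ), star e = e → star (fK c s e) = fK c s e := fun e he => by
    rw [← map_star, he]
  have sL : star cL = cL := star_cpx _
  have sR : star cR = cR := star_cpx _
  have sM : star cM = cM := by simp [cM, sL, sR]
  have e1 : ∀ b, star (PL c s b) = PL c s (star b) := fun b => by
    show star (Mid _ _ (cst _ b)) = Mid _ _ (cst _ (star b))
    rw [star_mid (fK_VV h), map_star]; rfl
  have e2 : ∀ b, star (PR c s b) = PR c s (star b) := fun b => by
    show star (Mid _ _ (cst _ b)) = Mid _ _ (cst _ (star b))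
    rw [star_mid (fK_UU h), map_star]; rfl
  have e3 : ∀ b, star (PM c s b) = PM c s (star b) := fun b => star_mid (fK_WW h) b
  simp only [Phi, map_star, star_add, star_mul, e1, e2, e3, hs _ sL, hs _ sR, hs _ sM]
  refine congrArg₂ (· + ·) (congrArg₂ (· + ·) ?_ ?_) ?_
  · exact (commute_mid (fK_VV h) cL _).eq
  · exact (commute_mid (fK_UU h) cR _).eq
  · exact (commute_mid (fK_WW h) cM _).eq

noncomputable def hom : dimDrop23 →⋆ₐ[ℂ] B where
  toFun := Phi c s
  map_one' := Phi_one h
  map_mul' := Phi_mul h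
  map_zero' := by simp [Phi]
  map_add' f g := by simp only [Phi, map_add, mul_add]; abel
  commutes' r := by
    simp only [Phi, Algebra.algebraMap_eq_smul_one, map_smul, mul_smul_comm, map_one,
      PL_one h, PR_one h, PM_one h]
    rw [← smul_add, ← smul_add, ← map_add, ← map_add, cuts_sum, map_one]
  map_star' := Phi_star h

end Bridge

variable {B : Type*} [CStarAlgebra B]

theorem nonempty_hom_of_pair {c s : B} (h : DimDropPair c s) :
    Nonempty (dimDrop23 →⋆ₐ[ℂ] B) := ⟨Bridge.hom h⟩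

namespace Bridge

/-- `t ↦ φ t • M`. -/
noncomputable def mkFun (φ : C(unitInterval, ℂ)) (M : Mat6) : C(unitInterval, M23) :=
  ⟨fun t => φ t • CStarMatrix.ofMatrix M, by fun_prop⟩

lemma mkFun_mul (φ ψ : C(unitInterval, ℂ)) (M N : Mat6) :
    mkFun φ M * mkFun ψ N = mkFun (φ * ψ) (M * N) := by
  refine ContinuousMap.ext fun t => ?_
  show (φ t • CStarMatrix.ofMatrix M) * (ψ t • CStarMatrix.ofMatrix N)
    = (φ t * ψ t) • CStarMatrix.ofMatrix (M * N)
  rw [smul_mul_smul_comm]; rfl

lemma mkFun_add (φ : C(unitInterval, ℂ)) (M N : Mat6) :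
    mkFun φ M + mkFun φ N = mkFun φ (M + N) := by
  refine ContinuousMap.ext fun t => ?_
  show φ t • CStarMatrix.ofMatrix M + φ t • CStarMatrix.ofMatrix N = _
  rw [← smul_add]; rfl

noncomputable def tt : C(unitInterval, ℂ) := ⟨fun t => ((t : ℝ) : ℂ), by fun_prop⟩

noncomputable def leftEl (a : Matrix (Fin 2) (Fin 2) ℂ) : dimDrop23 :=
  ⟨mkFun (1 - tt) (a ⊗ₖ (1 : Matrix (Fin 3) (Fin 3) ℂ)),
    ⟨a, by simp [mkFun, tt]⟩, 0, by simp [mkFun, tt]⟩

noncomputable def rightEl (b : Matrix (Fin 3) (Fin 3) ℂ) : dimDrop23 :=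
  ⟨mkFun tt ((1 : Matrix (Fin 2) (Fin 2) ℂ) ⊗ₖ b),
    ⟨0, by simp [mkFun, tt]⟩, b, by simp [mkFun, tt]⟩

noncomputable def midEl : dimDrop23 :=
  ⟨mkFun (tt * (1 - tt)) 1, ⟨0, by simp [mkFun, tt]⟩, 0, by simp [mkFun, tt]⟩

end Bridge

open Bridge in
theorem isEmpty_characters_dimDrop23 : IsEmpty (dimDrop23 →⋆ₐ[ℂ] ℂ) := by
  refine ⟨fun χ => ?_⟩
  have hx : ∀ i j : Fin 2, i ≠ j → χ (leftEl (Matrix.single i j 1)) = 0 := by
    intro i j hij
    have h0 : leftEl (Matrix.single i j 1) * leftEl (Matrix.single i j 1) = 0 :=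
      Subtype.ext (by
        show mkFun _ _ * mkFun _ _ = 0
        rw [mkFun_mul, ← Matrix.mul_kronecker_mul, Matrix.single_mul_single_of_ne (h := hij.symm)]
        ext t; simp [mkFun])
    have := congrArg χ h0
    rwa [map_mul, map_zero, mul_self_eq_zero] at this
  have hy : ∀ i j : Fin 3, i ≠ j → χ (rightEl (Matrix.single i j 1)) = 0 := by
    intro i j hij
    have h0 : rightEl (Matrix.single i j 1) * rightEl (Matrix.single i j 1) = 0 :=
      Subtype.ext (by
        show mkFun _ _ * mkFun _ _ = 0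
        rw [mkFun_mul, ← Matrix.mul_kronecker_mul, Matrix.single_mul_single_of_ne (h := hij.symm)]
        ext t; simp [mkFun])
    have := congrArg χ h0
    rwa [map_mul, map_zero, mul_self_eq_zero] at this
  let A := fun i j : Fin 2 => leftEl (Matrix.single i j 1)
  let C := fun i j : Fin 3 => rightEl (Matrix.single i j 1)
  set P := A 0 1 * A 1 0 + A 1 0 * A 0 1 with hP
  set Q := C 0 1 * C 1 0 + C 1 0 * C 0 1 + C 2 0 * C 0 2 with hQ
  have eP : (P : C(unitInterval, M23)) = mkFun ((1 - tt) * (1 - tt)) 1 := by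
    show mkFun _ _ * mkFun _ _ + mkFun _ _ * mkFun _ _ = _
    simp only [mkFun_mul, mkFun_add, ← Matrix.mul_kronecker_mul, ← Matrix.add_kronecker,
      Matrix.single_mul_single_same, one_mul]
    congr 1
    rw [← Matrix.one_kronecker_one]; congr 1
    ext i j; fin_cases i <;> fin_cases j <;> simp
  have eQ : (Q : C(unitInterval, M23)) = mkFun (tt * tt) 1 := by
    show mkFun _ _ * mkFun _ _ + mkFun _ _ * mkFun _ _ + mkFun _ _ * mkFun _ _ = _
    simp only [mkFun_mul, mkFun_add, ← Matrix.mul_kronecker_mul, ← Matrix.kronecker_add,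
      Matrix.single_mul_single_same, one_mul]
    congr 1
    rw [← Matrix.one_kronecker_one]; congr 1
    ext i j; fin_cases i <;> fin_cases j <;> simp
  have eR : midEl * midEl = P * Q := Subtype.ext (by
    show mkFun _ _ * mkFun _ _ = (P : C(unitInterval, M23)) * (Q : C(unitInterval, M23))
    rw [eP, eQ, mkFun_mul, mkFun_mul]
    congr 1; ring)
  have e1 : P + Q + (midEl + midEl) = 1 := Subtype.ext (by
    show (P : C(unitInterval, M23)) + (Q : C(unitInterval, M23)) + (mkFun _ _ + mkFun _ _) = 1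
    rw [eP, eQ]
    refine ContinuousMap.ext fun t => ?_
    simp only [mkFun, tt, ContinuousMap.add_apply, ContinuousMap.coe_mk, ContinuousMap.mul_apply,
      ContinuousMap.sub_apply, ContinuousMap.one_apply]
    rw [← add_smul, ← add_smul, ← add_smul,
      show ∀ z : ℂ, (1 - z) * (1 - z) + z * z + (z * (1 - z) + z * (1 - z)) = 1 from fun z => by ring,
      one_smul]
    rfl)
  have p0 : χ P = 0 := by simp [hP, A, map_add, map_mul, hx]
  have q0 : χ Q = 0 := by simp [hQ, C, map_add, map_mul, hy]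
  have r0 : χ midEl = 0 := by
    have := congrArg χ eR
    rwa [map_mul, map_mul, p0, zero_mul, mul_self_eq_zero] at this
  have := congrArg χ e1
  simp [map_add, p0, q0, r0] at this

end Vale.Agent.P101
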