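import Mathlib

/-! P101 bridge: functional calculus of a self-adjoint element on all of `C(ℝ, ℂ)`, an intertwining
lemma, and sums `∑ X_pq(K) z_p z_q*`. -/

open scoped ComplexOrder

namespace Vale.Agent.P101.Bridge

variable {B : Type*} [CStarAlgebra B]

/-- A real function as a complex one. -/
noncomputable def cpx (g : C(ℝ, ℝ)) : C(ℝ, ℂ) := ⟨fun x => (g x : ℂ), by fun_prop⟩

@[simp] lemma cpx_apply (g : C(ℝ, ℝ)) (x : ℝ) : cpx g x = g x := rfl

lemma cpx_mul (g g' : C(ℝ, ℝ)) : cpx (g * g') = cpx g * cpx g' := by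
  ext x; simp

lemma cpx_one : cpx 1 = 1 := by ext x; simp

lemma star_cpx (g : C(ℝ, ℝ)) : star (cpx g) = cpx g := by ext x; simp

/-- The inclusion `ℝ → ℂ`. -/
noncomputable def X₁ : C(ℝ, ℂ) := cpx (ContinuousMap.id ℝ)

/-- The real part on the spectrum. -/
noncomputable def reMap (a : B) : C(spectrum ℂ a, ℝ) :=
  ⟨fun z => (z : ℂ).re, Complex.continuous_re.comp continuous_subtype_val⟩

/-- Functional calculus of a self-adjoint element. -/
noncomputable def fn {a : B} (ha : IsSelfAdjoint a) : C(ℝ, ℂ) →⋆ₐ[ℂ] B :=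
  (cfcHom (R := ℂ) ha.isStarNormal).comp (ContinuousMap.compStarAlgHom' ℂ ℂ (reMap a))

lemma fn_X₁ {a : B} (ha : IsSelfAdjoint a) : fn ha X₁ = a := by
  have h : ContinuousMap.compStarAlgHom' ℂ ℂ (reMap a) X₁
      = (ContinuousMap.id ℂ).restrict (spectrum ℂ a) := by
    ext z
    exact (ha.mem_spectrum_eq_re z.2).symm
  show cfcHom (R := ℂ) ha.isStarNormal (ContinuousMap.compStarAlgHom' ℂ ℂ (reMap a) X₁) = a
  rw [h]; exact cfcHom_id (R := ℂ) ha.isStarNormal

lemma norm_fn_le {a : B} (ha : IsSelfAdjoint a) (g : C(ℝ, ℂ)) {e : ℝ} (he : 0 ≤ e)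
    (h : ∀ z ∈ spectrum ℂ a, ‖g z.re‖ ≤ e) : ‖fn ha g‖ ≤ e := by
  show ‖cfcHom (R := ℂ) ha.isStarNormal (ContinuousMap.compStarAlgHom' ℂ ℂ (reMap a) g)‖ ≤ e
  rw [norm_cfcHom a _ ha.isStarNormal]
  exact (ContinuousMap.norm_le _ he).2 fun z => h z z.2

lemma fn_congr {a : B} (ha : IsSelfAdjoint a) {g g' : C(ℝ, ℂ)}
    (h : ∀ z ∈ spectrum ℂ a, g z.re = g' z.re) : fn ha g = fn ha g' := by
  show cfcHom (R := ℂ) ha.isStarNormal (ContinuousMap.compStarAlgHom' ℂ ℂ (reMap a) g)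
    = cfcHom (R := ℂ) ha.isStarNormal (ContinuousMap.compStarAlgHom' ℂ ℂ (reMap a) g')
  exact congrArg _ (ContinuousMap.ext fun z => h z z.2)

/-- On an element `y* y` only the values on `[0,∞)` matter. -/
lemma fn_congr_nonneg {a y : B} (ha : IsSelfAdjoint a) (hy : a = star y * y) {g g' : C(ℝ, ℂ)}
    (h : ∀ x : ℝ, 0 ≤ x → g x = g' x) : fn ha g = fn ha g' := by
  refine fn_congr ha fun z hz => h _ ?_
  subst hy
  refine spectrum_star_mul_self_nonneg (b := y) _ ?_
  rw [← spectrum.algebraMap_mem_iff ℂ]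
  simpa [← ha.mem_spectrum_eq_re hz] using hz

lemma star_fn_cpx {a : B} (ha : IsSelfAdjoint a) (g : C(ℝ, ℝ)) :
    star (fn ha (cpx g)) = fn ha (cpx g) := by
  rw [← map_star, star_cpx]

lemma intertwine_poly {a b x : B} (ha : IsSelfAdjoint a) (hb : IsSelfAdjoint b) {u : C(ℝ, ℝ)}
    (h : a * x = x * fn hb (cpx u)) (p : Polynomial ℝ) :
    fn ha (cpx p.toContinuousMap) * x = x * fn hb ((cpx p.toContinuousMap).comp u) := by
  induction p using Polynomial.induction_on' with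
  | add p q hp hq =>
    have h1 : cpx (p + q).toContinuousMap = cpx p.toContinuousMap + cpx q.toContinuousMap := by
      ext t; simp
    have h2 : (cpx p.toContinuousMap + cpx q.toContinuousMap).comp u
        = (cpx p.toContinuousMap).comp u + (cpx q.toContinuousMap).comp u := rfl
    rw [h1, h2, map_add, map_add, add_mul, mul_add, hp, hq]
  | monomial n r =>
    have h1 : cpx (Polynomial.monomial n r).toContinuousMap = (r : ℂ) • X₁ ^ n := by
      ext t; simp [X₁]
    have h2 : ((r : ℂ) • X₁ ^ n).comp u = (r : ℂ) • cpx u ^ n := by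
      ext t; simp [X₁]
    rw [h1, h2, map_smul, map_smul, map_pow, map_pow, fn_X₁, smul_mul_assoc, mul_smul_comm]
    congr 1
    clear h1 h2
    induction n with
    | zero => simp
    | succ n ih => rw [pow_succ, pow_succ, mul_assoc, h, ← mul_assoc, ih, mul_assoc]

lemma intertwine_real {a b x : B} (ha : IsSelfAdjoint a) (hb : IsSelfAdjoint b) {u : C(ℝ, ℝ)}
    (h : a * x = x * fn hb (cpx u)) (f : C(ℝ, ℝ)) :
    fn ha (cpx f) * x = x * fn hb ((cpx f).comp u) := by
  have hpoly := intertwine_poly ha hb h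
  obtain ⟨r, hr⟩ : ∃ r, ((fun z : ℂ => z.re) '' spectrum ℂ a
      ∪ u '' ((fun z : ℂ => z.re) '' spectrum ℂ b)) ⊆ Metric.closedBall (0 : ℝ) r :=
    (((spectrum.isCompact a).image Complex.continuous_re).union
      (((spectrum.isCompact b).image Complex.continuous_re).image u.continuous)).isBounded.subset_closedBall 0
  rw [Real.closedBall_eq_Icc, zero_sub, zero_add] at hr
  refine eq_of_forall_dist_le fun e he => ?_
  have hd : (0:ℝ) < e / (2 * (‖x‖ + 1)) := by positivity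
  obtain ⟨p, hp⟩ := exists_polynomial_near_of_continuousOn (-r) r f f.continuous.continuousOn _ hd
  set d : C(ℝ, ℂ) := cpx f - cpx p.toContinuousMap with hdd
  have hfd : cpx f = d + cpx p.toContinuousMap := (sub_add_cancel _ _).symm
  have hn : ∀ t ∈ Set.Icc (-r) r, ‖d t‖ ≤ e / (2 * (‖x‖ + 1)) := by
    intro t ht
    have : d t = ((f t - p.eval t : ℝ) : ℂ) := by simp [hdd]
    rw [this, Complex.norm_real, Real.norm_eq_abs, abs_sub_comm]
    exact (hp t ht).le
  have n1 : ‖fn ha d‖ ≤ e / (2 * (‖x‖ + 1)) :=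
    norm_fn_le ha d hd.le fun z hz => hn _ (hr (Or.inl ⟨z, hz, rfl⟩))
  have n2 : ‖fn hb (d.comp u)‖ ≤ e / (2 * (‖x‖ + 1)) :=
    norm_fn_le hb _ hd.le fun z hz => hn _ (hr (Or.inr ⟨_, ⟨z, hz, rfl⟩, rfl⟩))
  have h2 : (d + cpx p.toContinuousMap).comp u = d.comp u + (cpx p.toContinuousMap).comp u := rfl
  rw [hfd, h2, map_add, map_add, add_mul, mul_add, hpoly p, dist_add_right, dist_eq_norm]
  calc ‖fn ha d * x - x * fn hb (d.comp u)‖
      ≤ ‖fn ha d * x‖ + ‖x * fn hb (d.comp u)‖ := norm_sub_le _ _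
    _ ≤ e / (2 * (‖x‖ + 1)) * ‖x‖ + ‖x‖ * (e / (2 * (‖x‖ + 1))) :=
        add_le_add
          ((norm_mul_le _ _).trans (mul_le_mul_of_nonneg_right n1 (norm_nonneg _)))
          ((norm_mul_le _ _).trans (mul_le_mul_of_nonneg_left n2 (norm_nonneg _)))
    _ = e * (‖x‖ / (‖x‖ + 1)) := by field_simp; ring
    _ ≤ e := mul_le_of_le_one_right he.le ((div_le_one (by positivity)).2 (by linarith))

/-- Intertwining passes to all continuous functions. -/
lemma intertwine {a b x : B} (ha : IsSelfAdjoint a) (hb : IsSelfAdjoint b) {u : C(ℝ, ℝ)}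
    (h : a * x = x * fn hb (cpx u)) (g : C(ℝ, ℂ)) : fn ha g * x = x * fn hb (g.comp u) := by
  have hreal := intertwine_real ha hb h
  obtain ⟨g₁, g₂, rfl⟩ : ∃ g₁ g₂ : C(ℝ, ℝ), g = cpx g₁ + Complex.I • cpx g₂ := by
    refine ⟨⟨fun t => (g t).re, by fun_prop⟩, ⟨fun t => (g t).im, by fun_prop⟩, ?_⟩
    ext t
    simp [mul_comm Complex.I, Complex.re_add_im]
  have hc : (cpx g₁ + Complex.I • cpx g₂).comp u
      = (cpx g₁).comp u + Complex.I • (cpx g₂).comp u := by ext t; simp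
  rw [hc, map_add, map_smul, map_add, map_smul, add_mul, mul_add, smul_mul_assoc, mul_smul_comm,
    hreal, hreal]

/-- Intertwining with no change of variable. -/
lemma intertwine_id {a b x : B} (ha : IsSelfAdjoint a) (hb : IsSelfAdjoint b)
    (h : a * x = x * b) (g : C(ℝ, ℂ)) : fn ha g * x = x * fn hb g := by
  have := intertwine ha hb (u := ContinuousMap.id ℝ) (x := x) (by rw [show cpx (ContinuousMap.id ℝ) = X₁ from rfl, fn_X₁]; exact h) g
  rwa [ContinuousMap.comp_id] at this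

/-- Intertwining with a scalar. -/
lemma fn_mul_of_eigen {a x : B} (ha : IsSelfAdjoint a) {r : ℝ} (h : a * x = (r : ℂ) • x)
    (g : C(ℝ, ℂ)) : fn ha g * x = g r • x := by
  have hu : cpx (ContinuousMap.const ℝ r) = (r : ℂ) • (1 : C(ℝ, ℂ)) := by ext; simp
  have := intertwine ha ha (u := ContinuousMap.const ℝ r) (x := x)
    (by rw [hu, map_smul, map_one, h, mul_smul_comm, mul_one]) g
  rw [this, show g.comp (ContinuousMap.const ℝ r) = g r • 1 by ext; simp, map_smul, map_one,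
    mul_smul_comm, mul_one]

lemma fn_commute {a x : B} (ha : IsSelfAdjoint a) (h : Commute a x) (g : C(ℝ, ℂ)) :
    Commute (fn ha g) x :=
  intertwine_id ha ha h.eq g

/-! ### Sums `∑ X_pq(K) z_p z_q*` -/

section Mid

variable {ι : Type*} [Fintype ι] (κ : C(ℝ, ℂ) →⋆ₐ[ℂ] B) (z : ι → B)

/-- `∑ X_pq(K) z_p z_q*`. -/
noncomputable def Mid : Matrix ι ι C(ℝ, ℂ) →ₗ[ℂ] B where
  toFun X := ∑ p, ∑ q, κ (X p q) * (z p * star (z q))
  map_add' X Y := by simp only [Matrix.add_apply, map_add, add_mul, Finset.sum_add_distrib]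
  map_smul' r X := by
    simp only [Matrix.smul_apply, map_smul, smul_mul_assoc, Finset.smul_sum, RingHom.id_apply]

lemma mid_apply (X : Matrix ι ι C(ℝ, ℂ)) :
    Mid κ z X = ∑ p, ∑ q, κ (X p q) * (z p * star (z q)) := rfl

variable {κ z}

lemma mid_smul_congr {c : C(ℝ, ℂ)} {X Y : Matrix ι ι C(ℝ, ℂ)}
    (h : ∀ p q, c * X p q = c * Y p q) : κ c * Mid κ z X = κ c * Mid κ z Y := by
  simp only [mid_apply, Finset.mul_sum, ← mul_assoc, ← map_mul, h]

variable (hK : ∀ (g : C(ℝ, ℂ)) p, Commute (κ g) (z p))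

include hK

lemma commute_star (g : C(ℝ, ℂ)) (p : ι) : Commute (κ g) (star (z p)) := by
  have := (hK (star g) p).star_star
  rwa [map_star, star_star] at this

lemma commute_mid (g : C(ℝ, ℂ)) (X : Matrix ι ι C(ℝ, ℂ)) : Commute (κ g) (Mid κ z X) :=
  Commute.sum_right _ _ _ fun p _ => Commute.sum_right _ _ _ fun q _ =>
    ((Commute.all g (X p q)).map κ).mul_right ((hK g p).mul_right (commute_star hK g q))

lemma star_mid (X : Matrix ι ι C(ℝ, ℂ)) : star (Mid κ z X) = Mid κ z X.conjTranspose := by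
  simp only [mid_apply, star_sum, star_mul, star_star, Matrix.conjTranspose_apply, map_star]
  rw [Finset.sum_comm]
  refine Finset.sum_congr rfl fun p _ => Finset.sum_congr rfl fun q _ => ?_
  rw [← map_star]
  exact (((hK _ p).mul_right (commute_star hK _ q))).eq.symm

lemma mid_mul [DecidableEq ι] {c : C(ℝ, ℂ)}
    (hz : ∀ p q r, κ c * (z p * (star (z q) * z r)) = if q = r then κ c * z p else 0)
    (X Y : Matrix ι ι C(ℝ, ℂ)) :
    κ c * (Mid κ z X * Mid κ z Y) = κ c * Mid κ z (X * Y) := by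
  have key : ∀ p q r s, κ c * (κ (X p q) * (z p * star (z q)) * (κ (Y r s) * (z r * star (z s))))
      = if q = r then κ c * (κ (X p q * Y r s) * (z p * star (z s))) else 0 := by
    intro p q r s
    have e1 : z p * star (z q) * (κ (Y r s) * (z r * star (z s)))
        = κ (Y r s) * ((z p * (star (z q) * z r)) * star (z s)) := by
      rw [← mul_assoc, ← ((hK (Y r s) p).mul_right (commute_star hK (Y r s) q)).eq]
      simp only [mul_assoc]
    have e2 : κ c * (κ (X p q) * κ (Y r s)) = κ (X p q * Y r s) * κ c := by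
      rw [← map_mul, ← map_mul, ← map_mul, mul_comm]
    rw [mul_assoc (κ (X p q)), e1, ← mul_assoc (κ (X p q)), ← mul_assoc, e2, mul_assoc,
      ← mul_assoc (κ c), hz]
    split_ifs
    · rw [← mul_assoc (κ c) (κ (X p q * Y r s)), ((Commute.all c (X p q * Y r s)).map κ).eq]
      simp only [mul_assoc]
    · rw [zero_mul, mul_zero]
  simp only [mid_apply, Finset.sum_mul]
  simp only [Finset.mul_sum, key, Matrix.mul_apply, map_sum, Finset.sum_mul]
  refine Finset.sum_congr rfl fun p _ => ?_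
  conv_lhs => enter [2, q]; rw [Finset.sum_comm]
  simp only [Finset.sum_ite_eq, Finset.mem_univ, if_true]
  rw [Finset.sum_comm]

end Mid

/-- Constant matrices. -/
noncomputable def cst (ι : Type*) [Fintype ι] [DecidableEq ι] :
    Matrix ι ι ℂ →⋆ₐ[ℂ] Matrix ι ι C(ℝ, ℂ) :=
  { (Algebra.ofId ℂ C(ℝ, ℂ)).mapMatrix with
    map_star' := fun X => by
      ext p q x
      simp [Matrix.star_apply, Algebra.ofId_apply] }

lemma cst_apply {ι : Type*} [Fintype ι] [DecidableEq ι] (X : Matrix ι ι ℂ) (p q : ι) :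
    cst ι X p q = algebraMap ℂ C(ℝ, ℂ) (X p q) := rfl

lemma mid_cst {ι : Type*} [Fintype ι] [DecidableEq ι] (κ : C(ℝ, ℂ) →⋆ₐ[ℂ] B) (z : ι → B)
    (X : Matrix ι ι ℂ) : Mid κ z (cst ι X) = ∑ p, ∑ q, X p q • (z p * star (z q)) := by
  simp only [mid_apply, cst_apply, AlgHomClass.commutes, Algebra.smul_def]

end Vale.Agent.P101.Bridge
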