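import Vale.Agent.P101.Bridge.Defs
import Vale.Agent.P101.Bridge.Calc

/-! P101 bridge, model side: the cutoffs and the three matrix homomorphisms of `I(2,3)`. -/

open scoped Kronecker ComplexOrder Real

namespace Vale.Agent.P101.Bridge

/-! ### Real functions -/

noncomputable def rL : C(ℝ, ℝ) := ⟨fun x => max 0 (min 1 (8 * x - 6)), by fun_prop⟩
noncomputable def rR : C(ℝ, ℝ) := ⟨fun x => max 0 (min 1 (2 - 8 * x)), by fun_prop⟩

noncomputable def gR : C(ℝ, ℝ) :=
  ⟨fun x => (Real.sqrt (max x (1/16)))⁻¹, Continuous.inv₀ (by fun_prop) fun x => by positivity⟩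
noncomputable def hR : C(ℝ, ℝ) :=
  ⟨fun x => x / max x (1/16), Continuous.div continuous_id (by fun_prop) fun x => by positivity⟩
noncomputable def phiR : C(ℝ, ℝ) := ⟨fun x => hR (1 - x), by fun_prop⟩
noncomputable def sqR : C(ℝ, ℝ) := ⟨Real.sqrt, Real.continuous_sqrt⟩

lemma hR_eq_one {x : ℝ} (h : 1/16 ≤ x) : hR x = 1 := by
  show x / max x (1/16) = 1
  rw [max_eq_left h, div_self (by linarith)]

lemma phiR_eq_one {x : ℝ} (h : x ≤ 15/16) : phiR x = 1 := hR_eq_one (by linarith)

lemma g_id_g : gR * ContinuousMap.id ℝ * gR = hR := by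
  ext x
  show (Real.sqrt (max x (1/16)))⁻¹ * x * (Real.sqrt (max x (1/16)))⁻¹ = x / max x (1/16)
  rw [mul_comm (Real.sqrt (max x (1/16)))⁻¹ x, mul_assoc, ← mul_inv,
    Real.mul_self_sqrt (by positivity), div_eq_mul_inv x]

noncomputable def cL : C(ℝ, ℂ) := cpx rL
noncomputable def cR : C(ℝ, ℂ) := cpx rR
noncomputable def cM : C(ℝ, ℂ) := 1 - cL - cR

lemma cuts_sum : cL + cR + cM = 1 := by rw [cM]; ring

lemma rL_eq_zero {x : ℝ} (h : x ≤ 3/4) : rL x = 0 :=
  max_eq_left ((min_le_right _ _).trans (by linarith))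

lemma rR_eq_zero {x : ℝ} (h : 1/4 ≤ x) : rR x = 0 :=
  max_eq_left ((min_le_right _ _).trans (by linarith))

lemma cM_eq_zero {x : ℝ} (h : x ≤ 1/8 ∨ 7/8 ≤ x) : cM x = 0 := by
  rcases h with h | h
  · have h1 : rR x = 1 := by
      show max 0 (min 1 (2 - 8 * x)) = 1
      rw [min_eq_left (by linarith), max_eq_right zero_le_one]
    simp [cM, cL, cR, rL_eq_zero (show x ≤ 3/4 by linarith), h1]
  · have h1 : rL x = 1 := by
      show max 0 (min 1 (8 * x - 6)) = 1
      rw [min_eq_left (by linarith), max_eq_right zero_le_one]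
    simp [cM, cL, cR, rR_eq_zero (show 1/4 ≤ x by linarith), h1]

lemma cL_mul_cR : cL * cR = 0 := by
  ext x
  rcases le_total x (3/4) with h | h
  · simp [cL, rL_eq_zero h]
  · simp [cR, rR_eq_zero (show 1/4 ≤ x by linarith)]

lemma cL_mul_h : cL * cpx hR = cL := by
  ext x
  rcases le_total x (3/4) with h | h
  · simp [cL, rL_eq_zero h]
  · simp [hR_eq_one (show 1/16 ≤ x by linarith)]

lemma cR_mul_phi : cR * cpx phiR = cR := by
  ext x
  rcases le_total (1/4) x with h | h
  · simp [cR, rR_eq_zero h]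
  · simp [phiR_eq_one (show x ≤ 15/16 by linarith)]

lemma cM_mul_h : cM * cpx hR = cM := by
  ext x
  rcases le_total x (1/8) with h | h
  · simp [cM_eq_zero (Or.inl h)]
  · simp [hR_eq_one (show 1/16 ≤ x by linarith)]

lemma cM_mul_phi : cM * cpx phiR = cM := by
  ext x
  rcases le_total (7/8) x with h | h
  · simp [cM_eq_zero (Or.inr h)]
  · simp [phiR_eq_one (show x ≤ 15/16 by linarith)]

/-- The parameter of the middle part. -/
noncomputable def eta : C(ℝ, unitInterval) :=
  ⟨fun x => Set.projIcc 0 1 zero_le_one (2 * x - 1/2), continuous_projIcc.comp (by fun_prop)⟩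

lemma eta_eq_one {x : ℝ} (h : 3/4 ≤ x) : eta x = 1 :=
  Set.projIcc_of_right_le zero_le_one (by linarith)

lemma eta_eq_zero {x : ℝ} (h : x ≤ 1/4) : eta x = 0 :=
  Set.projIcc_of_le_left zero_le_one (by linarith)

/-! ### Matrices -/

abbrev I6 := Fin 2 × Fin 3
abbrev Mat6 := Matrix I6 I6 ℂ

noncomputable def toM : M23 →⋆ₐ[ℂ] Mat6 :=
  (CStarMatrix.ofMatrixStarAlgEquiv.symm : M23 ≃⋆ₐ[ℂ] Mat6).toStarAlgHom

lemma toM_apply (X : M23) : toM X = CStarMatrix.ofMatrix.symm X := rfl

lemma continuous_toM : Continuous toM :=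
  (CStarMatrix.ofMatrixL (m := I6) (n := I6) (A := ℂ)).symm.continuous

/-- The transposition `(0,1) ↔ (1,0)`. -/
def sw : Equiv.Perm I6 := Equiv.swap (0, 1) (1, 0)

lemma sw_sw (p : I6) : sw (sw p) = p := Equiv.swap_apply_self _ _ _

def swapM : Mat6 := Matrix.of fun p q => if sw p = q then 1 else 0

lemma swapM_apply (p q : I6) : swapM p q = if sw p = q then 1 else 0 := rfl

lemma swapM_mul (X : Mat6) : swapM * X = X.submatrix sw id := by
  ext p q; simp [Matrix.mul_apply, swapM_apply]

lemma mul_swapM (X : Mat6) : X * swapM = X.submatrix id sw := by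
  ext p q
  rw [Matrix.mul_apply, Finset.sum_eq_single (sw q)]
  · simp [swapM_apply, sw_sw]
  · intro r _ hr
    rw [swapM_apply, if_neg, mul_zero]
    intro h; exact hr (by rw [← h, sw_sw])
  · simp

lemma swapM_sq : swapM * swapM = 1 := by
  ext p q; rw [swapM_mul]; simp [swapM_apply, sw_sw, Matrix.one_apply]

lemma star_swapM : star swapM = swapM := by
  ext p q
  rw [Matrix.star_apply, swapM_apply, swapM_apply]
  by_cases h : sw q = p
  · simp [← h, sw_sw]
  · have : sw p ≠ q := fun h' => h (by rw [← h', sw_sw])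
    simp [h, this]

noncomputable def projP : Mat6 := (1/2 : ℂ) • (1 - swapM)

lemma projP_sq : projP * projP = projP := by
  have : (1 - swapM) * (1 - swapM) = (2 : ℂ) • (1 - swapM) := by
    rw [sub_mul, mul_sub, mul_sub, swapM_sq, one_mul, one_mul, mul_one]; module
  rw [projP, smul_mul_assoc, mul_smul_comm, this]; module

lemma star_projP : star projP = projP := by
  simp [projP, star_swapM]

noncomputable def phase (t : unitInterval) : ℂ :=
  Complex.exp (((π * (1 - (t:ℝ))) : ℝ) * Complex.I)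

lemma star_mul_phase (t : unitInterval) : star (phase t) * phase t = 1 := by
  rw [Complex.star_def, Complex.conj_mul', phase, Complex.norm_exp_ofReal_mul_I]; simp

/-- The unitary path from the transposition to `1`. -/
noncomputable def Wu (t : unitInterval) : Mat6 := 1 + (phase t - 1) • projP

lemma Wu_star_mul (t : unitInterval) : star (Wu t) * Wu t = 1 := by
  have h := star_mul_phase t
  rw [Wu, star_add, star_one, star_smul, star_projP, star_sub, star_one, add_mul, one_mul,
    mul_add, mul_one, smul_mul_assoc, mul_smul_comm, projP_sq, smul_smul]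
  have : (star (phase t) - 1) * (phase t - 1) = -((phase t - 1) + (star (phase t) - 1)) := by
    linear_combination h
  rw [this]; module

lemma Wu_mul_star (t : unitInterval) : Wu t * star (Wu t) = 1 := by
  rw [mul_eq_one_comm]; exact Wu_star_mul t

lemma Wu_one : Wu 1 = 1 := by simp [Wu, phase]

lemma Wu_zero : Wu 0 = swapM := by
  have h : phase 0 = -1 := by simp [phase, Complex.exp_pi_mul_I]
  rw [Wu, h, projP]; module

@[fun_prop]
lemma continuous_phase : Continuous phase := by unfold phase; fun_prop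

lemma continuous_Wu : Continuous Wu :=
  continuous_const.add ((continuous_phase.sub continuous_const).smul continuous_const)

/-! ### The three homomorphisms -/

/-- The structure map of `I(2,3)`. -/
noncomputable abbrev amap : ℂ →+* dimDrop23 :=
  @algebraMap ℂ dimDrop23 _ (SubsemiringClass.toSemiring dimDrop23) _

variable (f g : dimDrop23)

noncomputable def bFun : Matrix (Fin 3) (Fin 3) ℂ :=
  Matrix.of fun x y => toM ((f : C(unitInterval, M23)) 1) (0, x) (0, y)

noncomputable def aFun : Matrix (Fin 2) (Fin 2) ℂ :=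
  Matrix.of fun i j => toM ((f : C(unitInterval, M23)) 0) (i, 0) (j, 0)

lemma toM_one_eq : toM ((f : C(unitInterval, M23)) 1)
    = (1 : Matrix (Fin 2) (Fin 2) ℂ) ⊗ₖ bFun f := by
  obtain ⟨-, b, hb⟩ := f.2
  have : bFun f = b := by
    ext x y
    show toM ((f : C(unitInterval, M23)) 1) (0, x) (0, y) = _
    rw [hb, toM_apply, Equiv.symm_apply_apply]; simp
  rw [hb, this, toM_apply, Equiv.symm_apply_apply]

lemma toM_zero_eq : toM ((f : C(unitInterval, M23)) 0)
    = aFun f ⊗ₖ (1 : Matrix (Fin 3) (Fin 3) ℂ) := by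
  obtain ⟨⟨a, ha⟩, -⟩ := f.2
  have : aFun f = a := by
    ext i j
    show toM ((f : C(unitInterval, M23)) 0) (i, 0) (j, 0) = _
    rw [ha, toM_apply, Equiv.symm_apply_apply]; simp
  rw [ha, this, toM_apply, Equiv.symm_apply_apply]

lemma kron_one_apply (b : Matrix (Fin 3) (Fin 3) ℂ) (x y : Fin 3) :
    ((1 : Matrix (Fin 2) (Fin 2) ℂ) ⊗ₖ b) (0, x) (0, y) = b x y := by simp

lemma apply_kron_one (a : Matrix (Fin 2) (Fin 2) ℂ) (i j : Fin 2) :
    (a ⊗ₖ (1 : Matrix (Fin 3) (Fin 3) ℂ)) (i, 0) (j, 0) = a i j := by simp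

noncomputable def bHom : dimDrop23 →⋆ₐ[ℂ] Matrix (Fin 3) (Fin 3) ℂ where
  toFun := bFun
  map_one' := by ext x y; simp [bFun, Matrix.one_apply]
  map_mul' f g := by
    ext x y
    show toM ((f : C(unitInterval, M23)) 1 * (g : C(unitInterval, M23)) 1) _ _ = _
    rw [map_mul, toM_one_eq, toM_one_eq, ← Matrix.mul_kronecker_mul, one_mul, kron_one_apply]
  map_zero' := by ext x y; simp [bFun]
  map_add' f g := by ext x y; simp [bFun]
  commutes' r := by
    ext x y
    simp [bFun, Matrix.algebraMap_matrix_apply, Matrix.one_apply]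
  map_star' f := by ext x y; simp [bFun, Matrix.star_apply, map_star]

noncomputable def aHom : dimDrop23 →⋆ₐ[ℂ] Matrix (Fin 2) (Fin 2) ℂ where
  toFun := aFun
  map_one' := by ext x y; simp [aFun, Matrix.one_apply]
  map_mul' f g := by
    ext x y
    show toM ((f : C(unitInterval, M23)) 0 * (g : C(unitInterval, M23)) 0) _ _ = _
    rw [map_mul, toM_zero_eq, toM_zero_eq, ← Matrix.mul_kronecker_mul, one_mul, apply_kron_one]
  map_zero' := by ext x y; simp [aFun]
  map_add' f g := by ext x y; simp [aFun]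
  commutes' r := by
    ext x y
    simp [aFun, Matrix.algebraMap_matrix_apply, Matrix.one_apply]
  map_star' f := by ext x y; simp [aFun, Matrix.star_apply, map_star]

/-- The middle part at `x`. -/
noncomputable def Fm (f : dimDrop23) (x : ℝ) : Mat6 :=
  Wu (eta x) * toM ((f : C(unitInterval, M23)) (eta x)) * star (Wu (eta x))

lemma continuous_Fm : Continuous (Fm f) := by
  have h1 : Continuous fun x => Wu (eta x) := continuous_Wu.comp eta.continuous
  have h2 : Continuous fun x => toM ((f : C(unitInterval, M23)) (eta x)) :=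
    continuous_toM.comp ((f : C(unitInterval, M23)).continuous.comp eta.continuous)
  exact (h1.mul h2).mul h1.star

noncomputable def FFun : Matrix I6 I6 C(ℝ, ℂ) :=
  Matrix.of fun p q => ⟨fun x => Fm f x p q, (continuous_Fm f).matrix_elem p q⟩

lemma FFun_apply (p q : I6) (x : ℝ) : FFun f p q x = Fm f x p q := rfl

lemma Fm_mul (x : ℝ) : Fm (f * g) x = Fm f x * Fm g x := by
  show Wu (eta x) * toM ((f : C(unitInterval, M23)) (eta x) * (g : C(unitInterval, M23)) (eta x))
    * star (Wu (eta x)) = _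
  simp only [Fm, map_mul, mul_assoc]
  rw [← mul_assoc (star (Wu (eta x))), Wu_star_mul, one_mul]

lemma Fm_add (x : ℝ) : Fm (f + g) x = Fm f x + Fm g x := by
  show Wu (eta x) * toM ((f : C(unitInterval, M23)) (eta x) + (g : C(unitInterval, M23)) (eta x))
    * star (Wu (eta x)) = _
  simp only [Fm, map_add, mul_add, add_mul]

lemma Fm_algebraMap (r : ℂ) (x : ℝ) : Fm (amap r) x = algebraMap ℂ Mat6 r := by
  show Wu (eta x) * toM (algebraMap ℂ M23 r) * star (Wu (eta x)) = _
  rw [AlgHomClass.commutes, ← Algebra.commutes, mul_assoc, Wu_mul_star, mul_one]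

lemma Fm_star (x : ℝ) : Fm (star f) x = star (Fm f x) := by
  show Wu (eta x) * toM (star ((f : C(unitInterval, M23)) (eta x))) * star (Wu (eta x)) = _
  simp only [Fm, map_star, star_mul, star_star, mul_assoc]

noncomputable def FHom : dimDrop23 →⋆ₐ[ℂ] Matrix I6 I6 C(ℝ, ℂ) where
  toFun := FFun
  map_one' := by
    ext p q x
    rw [FFun_apply, show (1 : dimDrop23) = amap 1 by rw [map_one], Fm_algebraMap, map_one]
    by_cases h : p = q <;> simp [Matrix.one_apply, h]
  map_mul' f g := by
    ext p q x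
    simp [FFun_apply, Fm_mul, Matrix.mul_apply, ContinuousMap.sum_apply]
  map_zero' := by
    ext p q x
    rw [FFun_apply, show (0 : dimDrop23) = amap 0 by rw [map_zero], Fm_algebraMap, map_zero]
    simp
  map_add' f g := by ext p q x; simp [FFun_apply, Fm_add]
  commutes' r := by
    ext p q x
    rw [FFun_apply, Fm_algebraMap]
    by_cases h : p = q <;> simp [h, Matrix.algebraMap_matrix_apply]
  map_star' f := by
    ext p q x
    simp [FFun_apply, Fm_star, Matrix.star_apply]

/-- `b ↦ 1 ⊗ b`. -/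
def oneKron (b : Matrix (Fin 3) (Fin 3) ℂ) : Mat6 := (1 : Matrix (Fin 2) (Fin 2) ℂ) ⊗ₖ b

/-- `a ↦ swap (a ⊗ 1) swap`. -/
def kronOne (a : Matrix (Fin 2) (Fin 2) ℂ) : Mat6 :=
  (a ⊗ₖ (1 : Matrix (Fin 3) (Fin 3) ℂ)).submatrix sw sw

lemma cL_F (p q : I6) : cL * FHom f p q = cL * cst I6 (oneKron (bHom f)) p q := by
  ext x
  rcases le_total x (3/4) with h | h
  · simp [cL, rL_eq_zero h]
  · have : Fm f x = oneKron (bFun f) := by
      rw [Fm, eta_eq_one h, Wu_one, toM_one_eq, star_one, one_mul, mul_one]; rfl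
    show cL x * Fm f x p q = cL x * oneKron (bFun f) p q
    rw [this]

lemma cR_F (p q : I6) : cR * FHom f p q = cR * cst I6 (kronOne (aHom f)) p q := by
  ext x
  rcases le_total (1/4) x with h | h
  · simp [cR, rR_eq_zero h]
  · have : Fm f x = kronOne (aFun f) := by
      rw [Fm, eta_eq_zero h, Wu_zero, toM_zero_eq, star_swapM, swapM_mul, mul_swapM,
        Matrix.submatrix_submatrix]
      rfl
    show cR x * Fm f x p q = cR x * kronOne (aFun f) p q
    rw [this]

end Vale.Agent.P101.Bridge
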