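import Mathlib

/-! P101: the prime dimension drop algebra `I(2,3)`, literally. -/

open scoped Kronecker ComplexOrder

namespace Vale.Agent.P101

/-- `M₂ ⊗ M₃` as a C*-algebra of matrices indexed by `Fin 2 × Fin 3`. -/
noncomputable abbrev M23 := CStarMatrix (Fin 2 × Fin 3) (Fin 2 × Fin 3) ℂ

/-- The dimension drop algebra `I(2,3)`: continuous `f : [0,1] → M₂ ⊗ M₃` with
`f 0 ∈ M₂ ⊗ 1` and `f 1 ∈ 1 ⊗ M₃`. -/
def dimDrop23 : StarSubalgebra ℂ C(unitInterval, M23) where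
  carrier := {f | (∃ a : Matrix (Fin 2) (Fin 2) ℂ, f 0 = CStarMatrix.ofMatrix (a ⊗ₖ (1 : Matrix (Fin 3) (Fin 3) ℂ))) ∧
    ∃ b : Matrix (Fin 3) (Fin 3) ℂ, f 1 = CStarMatrix.ofMatrix ((1 : Matrix (Fin 2) (Fin 2) ℂ) ⊗ₖ b)}
  mul_mem' := by
    rintro f g ⟨⟨a, ha⟩, b, hb⟩ ⟨⟨a', ha'⟩, b', hb'⟩
    refine ⟨⟨a * a', ?_⟩, b * b', ?_⟩
    · rw [ContinuousMap.mul_apply, ha, ha']
      exact congrArg CStarMatrix.ofMatrix
        ((Matrix.mul_kronecker_mul _ _ _ _).symm.trans (by rw [one_mul]))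
    · rw [ContinuousMap.mul_apply, hb, hb']
      exact congrArg CStarMatrix.ofMatrix
        ((Matrix.mul_kronecker_mul _ _ _ _).symm.trans (by rw [one_mul]))
  add_mem' := by
    rintro f g ⟨⟨a, ha⟩, b, hb⟩ ⟨⟨a', ha'⟩, b', hb'⟩
    refine ⟨⟨a + a', ?_⟩, b + b', ?_⟩
    · rw [ContinuousMap.add_apply, ha, ha']
      exact congrArg CStarMatrix.ofMatrix (Matrix.add_kronecker a a' _).symm
    · rw [ContinuousMap.add_apply, hb, hb']
      exact congrArg CStarMatrix.ofMatrix (Matrix.kronecker_add _ b b').symm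
  algebraMap_mem' := by
    intro r
    refine ⟨⟨r • 1, ?_⟩, r • 1, ?_⟩
    · rw [Algebra.algebraMap_eq_smul_one, ContinuousMap.smul_apply, ContinuousMap.one_apply,
        Matrix.smul_kronecker, Matrix.one_kronecker_one]
      rfl
    · rw [Algebra.algebraMap_eq_smul_one, ContinuousMap.smul_apply, ContinuousMap.one_apply,
        Matrix.kronecker_smul, Matrix.one_kronecker_one]
      rfl
  star_mem' := by
    rintro f ⟨⟨a, ha⟩, b, hb⟩
    refine ⟨⟨star a, ?_⟩, star b, ?_⟩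
    · rw [ContinuousMap.star_apply, ha]
      refine (congrArg CStarMatrix.ofMatrix (Matrix.conjTranspose_kronecker _ _)).trans ?_
      rw [Matrix.conjTranspose_one]
      rfl
    · rw [ContinuousMap.star_apply, hb]
      refine (congrArg CStarMatrix.ofMatrix (Matrix.conjTranspose_kronecker _ _)).trans ?_
      rw [Matrix.conjTranspose_one]
      rfl

end Vale.Agent.P101
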