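import Vale.Agent.P101.Fomega.Seq

/-! P101: `I(2,3)` and unital star homomorphisms `I(2,3) → F_ω(A)`, written on representatives. -/

open Filter Topology BoundedContinuousFunction
open scoped Kronecker

namespace Vale.Agent.P101

/-- Membership in `I(2,3)`: a continuous `f : [0,1] → M₂ ⊗ M₃` with `f 0 ∈ M₂ ⊗ 1` and
`f 1 ∈ 1 ⊗ M₃`. -/
def IsDimDrop23 (f : C(unitInterval, Matrix (Fin 2 × Fin 3) (Fin 2 × Fin 3) ℂ)) : Prop :=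
  (∃ a : Matrix (Fin 2) (Fin 2) ℂ, f 0 = a ⊗ₖ (1 : Matrix (Fin 3) (Fin 3) ℂ)) ∧
    ∃ b : Matrix (Fin 3) (Fin 3) ℂ, f 1 = (1 : Matrix (Fin 2) (Fin 2) ℂ) ⊗ₖ b

/-- `Φ` chooses representatives of a unital star homomorphism `I(2,3) → F_ω(A)`. -/
def IsDimDropHom (A : Type*) [CStarAlgebra A] (ω : Ultrafilter ℕ)
    (Φ : C(unitInterval, Matrix (Fin 2 × Fin 3) (Fin 2 × Fin 3) ℂ) → ℕ →ᵇ A) : Prop :=
  (∀ f, IsDimDrop23 f → Φ f ∈ centralSeq A ω) ∧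
  (∀ f g, IsDimDrop23 f → IsDimDrop23 g →
    Tendsto (fun n => Φ (f + g) n - (Φ f n + Φ g n)) ω (𝓝 0) ∧
    Tendsto (fun n => Φ (f * g) n - Φ f n * Φ g n) ω (𝓝 0)) ∧
  (∀ f, IsDimDrop23 f → ∀ r : ℂ, Tendsto (fun n => Φ (r • f) n - r • Φ f n) ω (𝓝 0) ∧
    Tendsto (fun n => Φ (star f) n - star (Φ f n)) ω (𝓝 0)) ∧
  Tendsto (fun n => Φ 1 n - 1) ω (𝓝 0)

end Vale.Agent.P101
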