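import Vale.Agent.P101.Fomega.Main
import Vale.Agent.P101.Bridge.Seq
import Vale.Agent.P101.Bridge.Hom

/-! P101: `F_ω(A)` has no characters iff `I(2,3)` maps unitally into it. -/

open Filter Topology BoundedContinuousFunction
open scoped Kronecker ComplexOrder

namespace Vale.Agent.P101

/-- A function into matrices, as a function into the C*-matrix algebra. -/
noncomputable def toM23 (f : C(unitInterval, Matrix (Fin 2 × Fin 3) (Fin 2 × Fin 3) ℂ)) :
    C(unitInterval, M23) :=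
  ⟨fun t => CStarMatrix.ofMatrix (f t), f.continuous⟩

/-- The inverse of `toM23`. -/
noncomputable def ofM23 (f : C(unitInterval, M23)) :
    C(unitInterval, Matrix (Fin 2 × Fin 3) (Fin 2 × Fin 3) ℂ) :=
  ⟨fun t => CStarMatrix.ofMatrix.symm (f t), f.continuous⟩

theorem toM23_mem {f : C(unitInterval, Matrix (Fin 2 × Fin 3) (Fin 2 × Fin 3) ℂ)}
    (h : IsDimDrop23 f) : toM23 f ∈ dimDrop23 := by
  obtain ⟨⟨a, ha⟩, b, hb⟩ := h
  exact ⟨⟨a, congrArg CStarMatrix.ofMatrix ha⟩, b, congrArg CStarMatrix.ofMatrix hb⟩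

theorem isDimDrop23_ofM23 {f : C(unitInterval, M23)} (h : f ∈ dimDrop23) :
    IsDimDrop23 (ofM23 f) := by
  obtain ⟨⟨a, ha⟩, b, hb⟩ := h
  exact ⟨⟨a, congrArg CStarMatrix.ofMatrix.symm ha⟩, b, congrArg CStarMatrix.ofMatrix.symm hb⟩

variable {A : Type*} [CStarAlgebra A] {ω : Ultrafilter ℕ}

theorem exists_isDimDropHom (φ : dimDrop23 →⋆ₐ[ℂ] Fomega A ω) :
    ∃ Φ, IsDimDropHom A ω Φ := by
  classical
  choose rep hrep using Ideal.Quotient.mk_surjective (I := nullIdeal A ω)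
  let R : C(unitInterval, Matrix (Fin 2 × Fin 3) (Fin 2 × Fin 3) ℂ) → centralSeq A ω :=
    fun f => if h : IsDimDrop23 f then rep (φ ⟨toM23 f, toM23_mem h⟩) else 0
  have hR : ∀ f (h : toM23 f ∈ dimDrop23), fomegaMk (R f) = φ ⟨toM23 f, h⟩ := fun f h => by
    have h' : IsDimDrop23 f := isDimDrop23_ofM23 h
    simp only [R, dif_pos h']
    exact hrep _
  refine ⟨fun f => R f, fun f _ => (R f).2, fun f g hf hg => ⟨?_, ?_⟩, fun f hf r => ⟨?_, ?_⟩, ?_⟩
  · have h : toM23 (f + g) ∈ dimDrop23 := add_mem (toM23_mem hf) (toM23_mem hg)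
    exact (mk_eq_iff (R (f + g)) (R f + R g)).1 (by
      rw [map_add, hR _ h, hR _ (toM23_mem hf), hR _ (toM23_mem hg), ← map_add]; rfl)
  · have h : toM23 (f * g) ∈ dimDrop23 := mul_mem (toM23_mem hf) (toM23_mem hg)
    exact (mk_eq_iff (R (f * g)) (R f * R g)).1 (by
      rw [map_mul, hR _ h, hR _ (toM23_mem hf), hR _ (toM23_mem hg), ← map_mul]; rfl)
  · have h : toM23 (r • f) ∈ dimDrop23 := SMulMemClass.smul_mem r (toM23_mem hf)
    exact (mk_eq_iff (R (r • f)) (r • R f)).1 (by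
      rw [map_smul, hR _ h, hR _ (toM23_mem hf), ← map_smul]; rfl)
  · have e : toM23 (star f) = star (toM23 f) := by ext t; rfl
    have h : toM23 (star f) ∈ dimDrop23 := by rw [e]; exact star_mem (toM23_mem hf)
    exact (mk_eq_iff (R (star f)) (star (R f))).1 (by
      rw [map_star, hR _ h, hR _ (toM23_mem hf), ← map_star]
      exact congrArg φ (Subtype.ext e))
  · have h : toM23 1 ∈ dimDrop23 := one_mem dimDrop23
    exact (mk_eq_iff (R 1) 1).1 (by rw [map_one, hR _ h, ← map_one φ]; rfl)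

theorem nonempty_hom_of_isDimDropHom
    {Φ : C(unitInterval, Matrix (Fin 2 × Fin 3) (Fin 2 × Fin 3) ℂ) → ℕ →ᵇ A}
    (hΦ : IsDimDropHom A ω Φ) : Nonempty (dimDrop23 →⋆ₐ[ℂ] Fomega A ω) := by
  obtain ⟨hc, hadd, hsmul, hone⟩ := hΦ
  let P : dimDrop23 → centralSeq A ω := fun f => ⟨Φ (ofM23 f), hc _ (isDimDrop23_ofM23 f.2)⟩
  have h1 : fomegaMk (P 1) = 1 := by
    rw [← map_one (fomegaMk (A := A) (ω := ω))]
    exact (mk_eq_iff _ _).2 hone
  have hs : ∀ (r : ℂ) f, fomegaMk (P (r • f)) = r • fomegaMk (P f) := fun r f => by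
    rw [← map_smul]
    exact (mk_eq_iff _ _).2 (hsmul _ (isDimDrop23_ofM23 f.2) r).1
  refine ⟨{ toFun := fun f => fomegaMk (P f)
            map_one' := h1
            map_mul' := fun f g => ?_
            map_zero' := ?_
            map_add' := fun f g => ?_
            commutes' := fun r => ?_
            map_star' := fun f => ?_ }⟩
  · rw [← map_mul]
    exact (mk_eq_iff _ _).2 (hadd _ _ (isDimDrop23_ofM23 f.2) (isDimDrop23_ofM23 g.2)).2
  · simpa using hs 0 0
  · rw [← map_add]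
    exact (mk_eq_iff _ _).2 (hadd _ _ (isDimDrop23_ofM23 f.2) (isDimDrop23_ofM23 g.2)).1
  · show fomegaMk (P (algebraMap ℂ dimDrop23 r)) = algebraMap ℂ (Fomega A ω) r
    rw [Algebra.algebraMap_eq_smul_one, hs, h1, Algebra.algebraMap_eq_smul_one]
  · rw [← map_star]
    exact (mk_eq_iff _ _).2 (hsmul _ (isDimDrop23_ofM23 f.2) 1).2

theorem characterless_iff_dimDropHom [TopologicalSpace.SeparableSpace A]
    (hω : (ω : Filter ℕ) ≤ atTop) :
    IsEmpty (FomegaCharacter A ω) ↔ ∃ Φ, IsDimDropHom A ω Φ := by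
  rw [isEmpty_fomegaCharacter_iff]
  constructor
  · intro h
    obtain ⟨c, s, hcs⟩ := exists_dimDropPair (hasCopies_fomega hω) h
    obtain ⟨φ⟩ := nonempty_hom_of_pair hcs
    exact exists_isDimDropHom φ
  · rintro ⟨Φ, hΦ⟩
    obtain ⟨φ⟩ := nonempty_hom_of_isDimDropHom hΦ
    exact ⟨fun χ => isEmpty_characters_dimDrop23.false (χ.comp φ)⟩

end Vale.Agent.P101
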