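import Vale.Agent.P101.Defs
import Vale.Agent.P101.Bridge.Path

/-! P101 bridge, target side: the three systems of partial matrix units given by a pair. -/

open scoped ComplexOrder

namespace Vale.Agent.P101.Bridge

variable {B : Type*} [CStarAlgebra B] (c s : B)

noncomputable abbrev fT : C(ℝ, ℂ) →⋆ₐ[ℂ] B := fn (IsSelfAdjoint.star_mul_self c)
noncomputable abbrev fR : C(ℝ, ℂ) →⋆ₐ[ℂ] B := fn (IsSelfAdjoint.star_mul_self s)

/-- The central element. -/
noncomputable def KK : B := s * star s + c * (s * star s) * star c + star s * s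

lemma isSelfAdjoint_KK : IsSelfAdjoint (KK c s) := by
  simp [isSelfAdjoint_iff, KK, mul_assoc]

noncomputable abbrev fK : C(ℝ, ℂ) →⋆ₐ[ℂ] B := fn (isSelfAdjoint_KK c s)

noncomputable def pp : B := fT c (cpx sqR)
noncomputable def sig : B := fR s (cpx sqR)
noncomputable def vv : Fin 3 → B := ![s, c * s, sig s]
noncomputable def uu : Fin 2 → B := ![pp c, c]
noncomputable def VV (a : Fin 3) : B := vv c s a * fR s (cpx gR)
noncomputable def UU (i : Fin 2) : B := uu c i * fT c (cpx gR)
noncomputable def WW (q : I6) : B := VV c s q.2 * UU c q.1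

omit [CStarAlgebra B] in
lemma gR_one : gR 1 = 1 := by
  show (Real.sqrt (max (1:ℝ) (1/16)))⁻¹ = 1
  rw [max_eq_left (by norm_num), Real.sqrt_one, inv_one]

lemma star_pp : star (pp c) = pp c := star_fn_cpx _ _
lemma star_sig : star (sig s) = sig s := star_fn_cpx _ _

lemma pp_mul_pp : pp c * pp c = star c * c := by
  rw [pp, ← map_mul]
  conv_rhs => rw [← fn_X₁ (IsSelfAdjoint.star_mul_self c)]
  exact fn_congr_nonneg _ rfl fun x hx => by
    simp [X₁, sqR, ← Complex.ofReal_mul, Real.mul_self_sqrt hx]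

lemma sig_mul_sig : sig s * sig s = star s * s := by
  rw [sig, ← map_mul]
  conv_rhs => rw [← fn_X₁ (IsSelfAdjoint.star_mul_self s)]
  exact fn_congr_nonneg _ rfl fun x hx => by
    simp [X₁, sqR, ← Complex.ofReal_mul, Real.mul_self_sqrt hx]

lemma sig_comm_R : Commute (sig s) (star s * s) :=
  fn_commute _ (Commute.refl (star s * s)) _

variable {c s} (h : DimDropPair c s)
include h

lemma Ts : star c * c * s = s := h.2.2

lemma R_eq : star s * s = 1 - star c * c - c * star c := h.2.1

lemma Tc : star c * c * c = 0 := by rw [mul_assoc, h.1, mul_zero]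

lemma cs_star : star c * s = 0 := by
  have h1 : star c * star c = 0 := by rw [← star_mul, h.1, star_zero]
  rw [← Ts h, ← mul_assoc, ← mul_assoc, h1, zero_mul, zero_mul]

lemma sc_star : star s * c = 0 := by
  have := congrArg star (cs_star h); rwa [star_mul, star_star, star_zero] at this

lemma sT : star s * (star c * c) = star s := by
  have := congrArg star (Ts h); rwa [star_mul, star_mul, star_star] at this

lemma Rs : star s * s * s = 0 := by
  rw [R_eq h, sub_mul, sub_mul, one_mul, Ts h, mul_assoc, cs_star h, mul_zero]; simp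

lemma Rc : Commute (star s * s) c := by
  show _ = _
  rw [R_eq h, sub_mul, sub_mul, one_mul, mul_sub, mul_sub, mul_one, Tc h, ← mul_assoc c c, h.1,
    zero_mul, mul_assoc]
  abel

lemma Rc_star : Commute (star s * s) (star c) := by
  have := (Rc h).star_star; rwa [star_mul, star_star] at this

lemma RT : Commute (star s * s) (star c * c) := (Rc_star h).mul_right (Rc h)

lemma ss_zero : s * s = 0 := by
  rw [← CStarRing.star_mul_self_eq_zero_iff, star_mul, mul_assoc, ← mul_assoc (star s) s, Rs h,
    mul_zero]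

lemma scs_zero : s * (c * s) = 0 := by
  rw [← CStarRing.star_mul_self_eq_zero_iff, star_mul, mul_assoc, ← mul_assoc (star s) s,
    ← mul_assoc (star s * s), (Rc h).eq, mul_assoc c, Rs h, mul_zero, mul_zero]

lemma fT_s (g : C(ℝ, ℂ)) : fT c g * s = g 1 • s :=
  fn_mul_of_eigen _ (by simpa using Ts h) g

lemma fT_c (g : C(ℝ, ℂ)) : fT c g * c = g 0 • c :=
  fn_mul_of_eigen _ (by simpa using Tc h) g

lemma fR_s (g : C(ℝ, ℂ)) : fR s g * s = g 0 • s :=
  fn_mul_of_eigen _ (by simpa using Rs h) g

lemma pp_s : pp c * s = s := by rw [pp, fT_s h]; simp [sqR]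
lemma pp_c : pp c * c = 0 := by rw [pp, fT_c h]; simp [sqR]
lemma sig_s : sig s * s = 0 := by rw [sig, fR_s h]; simp [sqR]

lemma sig_c : Commute (sig s) c := fn_commute _ (Rc h) _

lemma sig_cs : sig s * (c * s) = 0 := by
  rw [← mul_assoc, (sig_c h).eq, mul_assoc, sig_s h, mul_zero]

lemma star_s_sig : star s * sig s = 0 := by
  have := congrArg star (sig_s h); rwa [star_mul, star_sig, star_zero] at this

lemma star_cs_sig : star (c * s) * sig s = 0 := by
  have := congrArg star (sig_cs h); rwa [star_mul, star_sig, star_zero] at this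

lemma star_c_pp : star c * pp c = 0 := by
  have := congrArg star (pp_c h); rwa [star_mul, star_pp, star_zero] at this

lemma u_star_u (i j : Fin 2) : star (uu c i) * uu c j = if i = j then star c * c else 0 := by
  fin_cases i <;> fin_cases j <;>
    simp [uu, star_pp, pp_mul_pp, pp_c h, star_c_pp h]

lemma v_star_v (a b : Fin 3) : star (vv c s a) * vv c s b = if a = b then star s * s else 0 := by
  have e1 : star s * (c * s) = 0 := by rw [← mul_assoc, sc_star h, zero_mul]
  have e2 : star (c * s) * s = 0 := by rw [star_mul, mul_assoc, cs_star h, mul_zero]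
  have e3 : star (c * s) * (c * s) = star s * s := by
    rw [star_mul, mul_assoc, ← mul_assoc (star c), Ts h]
  fin_cases a <;> fin_cases b <;>
    simp [vv, star_sig, sig_mul_sig, sig_s h, sig_cs h, star_s_sig h, star_cs_sig h, e1, e2, e3,
      -star_mul]

lemma Kc : Commute (KK c s) c := by
  have h1 : s * star s * (star c * c) = s * star s := by rw [mul_assoc, sT h]
  have h2 : s * star s * c = 0 := by rw [mul_assoc, sc_star h, mul_zero]
  show _ = _
  simp only [KK, add_mul, mul_add]
  rw [h2, mul_assoc (c * (s * star s)) (star c) c, mul_assoc c (s * star s) (star c * c), h1,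
    ← mul_assoc c (c * (s * star s)) (star c), ← mul_assoc c c, h.1, (Rc h).eq]
  simp

lemma Ks : Commute (KK c s) s := by
  show _ = _
  simp only [KK, add_mul, mul_add]
  rw [mul_assoc (c * (s * star s)) (star c) s, cs_star h, Rs h,
    show s * (c * (s * star s) * star c) = (s * (c * s)) * (star s * star c) by
      simp only [mul_assoc], scs_zero h, ← mul_assoc s s (star s), ss_zero h]
  simp [mul_assoc]

lemma Kc_star : Commute (KK c s) (star c) := by
  have := (Kc h).star_star; rwa [(isSelfAdjoint_KK c s).star_eq] at this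

lemma Ks_star : Commute (KK c s) (star s) := by
  have := (Ks h).star_star; rwa [(isSelfAdjoint_KK c s).star_eq] at this

lemma K_fT (g : C(ℝ, ℂ)) : Commute (KK c s) (fT c g) :=
  (fn_commute _ ((Kc_star h).mul_right (Kc h)).symm g).symm

lemma K_fR (g : C(ℝ, ℂ)) : Commute (KK c s) (fR s g) :=
  (fn_commute _ ((Ks_star h).mul_right (Ks h)).symm g).symm

lemma fK_VV (g : C(ℝ, ℂ)) (a : Fin 3) : Commute (fK c s g) (VV c s a) := by
  refine fn_commute _ (Commute.mul_right ?_ (K_fR h _)) g
  fin_cases a <;> simp only [vv]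
  · exact Ks h
  · exact (Kc h).mul_right (Ks h)
  · exact K_fR h _

lemma fK_UU (g : C(ℝ, ℂ)) (i : Fin 2) : Commute (fK c s g) (UU c i) := by
  refine fn_commute _ (Commute.mul_right ?_ (K_fT h _)) g
  fin_cases i <;> simp only [uu]
  · exact K_fT h _
  · exact Kc h

lemma fK_WW (g : C(ℝ, ℂ)) (q : I6) : Commute (fK c s g) (WW c s q) :=
  (fK_VV h g q.2).mul_right (fK_UU h g q.1)

lemma fR_UU (g : C(ℝ, ℂ)) (i : Fin 2) : Commute (fR s g) (UU c i) := by
  refine fn_commute _ (Commute.mul_right ?_ (fn_commute _ (RT h).symm _).symm) g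
  fin_cases i <;> simp only [uu]
  · exact (fn_commute _ (RT h).symm _).symm
  · exact Rc h

lemma K_vv (a : Fin 3) : KK c s * vv c s a = vv c s a * (star s * s) := by
  have k1 : KK c s * s = s * (star s * s) := by
    simp only [KK, add_mul]
    rw [mul_assoc (c * (s * star s)) (star c) s, cs_star h, Rs h]
    simp [mul_assoc]
  fin_cases a <;> simp only [vv]
  · exact k1
  · show KK c s * (c * s) = c * s * (star s * s)
    rw [← mul_assoc, (Kc h).eq, mul_assoc, k1, mul_assoc c s]
  · show KK c s * sig s = sig s * (star s * s)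
    rw [(sig_comm_R s).eq]
    simp only [KK, add_mul]
    rw [mul_assoc s, star_s_sig h,
      show c * (s * star s) * star c * sig s = c * s * (star (c * s) * sig s) by
        simp only [star_mul, mul_assoc],
      star_cs_sig h]
    simp

lemma fK_mul_vv (g : C(ℝ, ℂ)) (a : Fin 3) : fK c s g * vv c s a = vv c s a * fR s g :=
  intertwine_id _ _ (K_vv h a) g

lemma fK_mul_VV (g : C(ℝ, ℂ)) (a : Fin 3) : fK c s g * VV c s a = VV c s a * fR s g := by
  rw [VV, ← mul_assoc, fK_mul_vv h, mul_assoc, mul_assoc, ← map_mul, ← map_mul, mul_comm]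

lemma V_star_V (a b : Fin 3) :
    star (VV c s a) * VV c s b = if a = b then fR s (cpx hR) else 0 := by
  rw [VV, VV, star_mul, star_fn_cpx, mul_assoc, ← mul_assoc (star (vv c s a)), v_star_v h]
  split_ifs
  · conv_lhs => enter [2, 1]; rw [← fn_X₁ (IsSelfAdjoint.star_mul_self s)]
    rw [← map_mul, ← map_mul, ← g_id_g, cpx_mul, cpx_mul, ← mul_assoc]; rfl
  · simp

lemma U_star_U (i j : Fin 2) :
    star (UU c i) * UU c j = if i = j then fT c (cpx hR) else 0 := by
  rw [UU, UU, star_mul, star_fn_cpx, mul_assoc, ← mul_assoc (star (uu c i)), u_star_u h]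
  split_ifs
  · conv_lhs => enter [2, 1]; rw [← fn_X₁ (IsSelfAdjoint.star_mul_self c)]
    rw [← map_mul, ← map_mul, ← g_id_g, cpx_mul, cpx_mul, ← mul_assoc]; rfl
  · simp

lemma sum_VV : ∑ a, VV c s a * star (VV c s a) = fK c s (cpx hR) := by
  have e : ∀ a, VV c s a * star (VV c s a)
      = fK c s (cpx gR * cpx gR) * (vv c s a * star (vv c s a)) := by
    intro a
    rw [VV, star_mul, star_fn_cpx, ← mul_assoc (fK c s _), fK_mul_vv h, map_mul]
    simp only [mul_assoc]
  have e2 : ∑ a, vv c s a * star (vv c s a) = KK c s := by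
    rw [Fin.sum_univ_three]
    show s * star s + c * s * star (c * s) + sig s * star (sig s) = _
    rw [star_sig, sig_mul_sig, KK, star_mul]
    simp only [mul_assoc]
  rw [Finset.sum_congr rfl fun a _ => e a, ← Finset.mul_sum, e2]
  conv_lhs => enter [2]; rw [← fn_X₁ (isSelfAdjoint_KK c s)]
  rw [← map_mul]
  congr 1
  rw [← g_id_g, cpx_mul, cpx_mul]
  show _ = cpx gR * X₁ * cpx gR
  ring

lemma fn_one_sub_R (g : C(ℝ, ℂ)) (ha : IsSelfAdjoint (1 - star s * s)) :
    fn ha g = fR s (g.comp ⟨fun x : ℝ => 1 - x, by fun_prop⟩) := by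
  have e : cpx (⟨fun x : ℝ => 1 - x, by fun_prop⟩ : C(ℝ, ℝ)) = 1 - X₁ := by
    ext x; simp [X₁]
  simpa using intertwine ha (IsSelfAdjoint.star_mul_self s) (x := 1)
    (u := ⟨fun x : ℝ => 1 - x, by fun_prop⟩) (by rw [e, map_sub, map_one, fn_X₁]; simp) g

lemma sum_UU : ∑ i, UU c i * star (UU c i) = fR s (cpx phiR) := by
  have ha : IsSelfAdjoint (1 - star s * s) :=
    (IsSelfAdjoint.one B).sub (IsSelfAdjoint.star_mul_self s)
  have hA : 1 - star s * s = star c * c + c * star c := by rw [R_eq h]; abel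
  set G := cpx gR * cpx gR with hG
  have h1 : fn ha G * (star c * c) = star c * c * fT c G := by
    refine intertwine_id ha _ ?_ G
    rw [hA, add_mul, show c * star c * (star c * c) = c * (star c * star c) * c by
      simp only [mul_assoc], show star c * star c = 0 by rw [← star_mul, h.1, star_zero]]
    simp
  have h2 : fn ha G * c = c * fT c G := by
    refine intertwine_id ha _ ?_ G
    rw [hA, add_mul, Tc h, zero_add, mul_assoc]
  rw [Fin.sum_univ_two, UU, UU, star_mul, star_mul, star_fn_cpx]
  show pp c * fT c (cpx gR) * (fT c (cpx gR) * star (pp c))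
    + c * fT c (cpx gR) * (fT c (cpx gR) * star c) = _
  rw [star_pp, mul_assoc, ← mul_assoc (fT c _) (fT c _), mul_assoc c, ← mul_assoc (fT c _) (fT c _) (star c),
    ← map_mul, ← hG,
    show pp c * (fT c G * pp c) = star c * c * fT c G by
      rw [← pp_mul_pp c, pp, ← map_mul, ← map_mul, ← map_mul, ← map_mul]; congr 1; ring,
    ← h1, ← mul_assoc c, ← h2, mul_assoc (fn ha G) c, ← mul_add, ← hA]
  conv_lhs => enter [2]; rw [← fn_X₁ ha]
  rw [← map_mul, fn_one_sub_R h _ ha]
  congr 1
  ext x
  show (G * X₁) (1 - x) = _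
  have := congrArg (fun k : C(ℝ, ℝ) => ((k (1 - x) : ℝ) : ℂ)) g_id_g
  simp [hG, X₁, phiR] at this ⊢
  rw [← this]; ring

lemma U_hT (i : Fin 2) : UU c i * fT c (cpx hR) = fR s (cpx phiR) * UU c i := by
  rw [← sum_UU h, Finset.sum_mul]
  simp only [mul_assoc, U_star_U h, mul_ite, mul_zero, Finset.sum_ite_eq', Finset.mem_univ, if_true]

lemma cR_phi : fK c s cR * fR s (cpx phiR) = fK c s cR := by
  have hKR : KK c s * (star s * s) = star s * s * (star s * s) := by
    have := K_vv h 2
    simp only [vv] at this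
    change KK c s * sig s = sig s * (star s * s) at this
    rw [← sig_mul_sig s, ← mul_assoc, this, sig_mul_sig,
      (sig_comm_R s).eq,
      mul_assoc, sig_mul_sig]
  set k : C(ℝ, ℂ) := 1 - cpx phiR with hk
  have hk' : k = X₁ * (k * (cpx gR * cpx gR)) := by
    have : k = k * cpx hR := by
      ext x
      rcases le_total x (15/16) with hx | hx
      · simp [hk, phiR_eq_one hx]
      · simp [hR_eq_one (show 1/16 ≤ x by linarith)]
    conv_lhs => rw [this, ← g_id_g, cpx_mul, cpx_mul]
    rw [show cpx (ContinuousMap.id ℝ) = X₁ from rfl]; ring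
  have h0 : fK c s cR * fR s k = 0 := by
    rw [hk', map_mul, fn_X₁, ← mul_assoc, intertwine_id _ (IsSelfAdjoint.star_mul_self s) hKR,
      mul_assoc, ← map_mul,
      show cR * (k * (cpx gR * cpx gR)) = 0 by rw [← mul_assoc, hk, mul_sub, cR_mul_phi]; simp]
    simp
  have : fR s (cpx phiR) = 1 - fR s k := by rw [hk, map_sub, map_one]; abel
  rw [this, mul_sub, h0]; simp

lemma hz_V (a b d : Fin 3) :
    fK c s cL * (VV c s a * (star (VV c s b) * VV c s d))
      = if b = d then fK c s cL * VV c s a else 0 := by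
  rw [V_star_V h]
  split_ifs
  · rw [← fK_mul_VV h, ← mul_assoc, ← map_mul, cL_mul_h]
  · simp

lemma hz_U (i j l : Fin 2) :
    fK c s cR * (UU c i * (star (UU c j) * UU c l))
      = if j = l then fK c s cR * UU c i else 0 := by
  rw [U_star_U h]
  split_ifs
  · rw [U_hT h, ← mul_assoc, cR_phi h]
  · simp

lemma hz_W (p q r : I6) :
    fK c s cM * (WW c s p * (star (WW c s q) * WW c s r))
      = if q = r then fK c s cM * WW c s p else 0 := by
  obtain ⟨i, a⟩ := p; obtain ⟨j, b⟩ := q; obtain ⟨l, d⟩ := r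
  simp only [WW, star_mul]
  rw [mul_assoc (star (UU c j)), ← mul_assoc (star (VV c s b)), V_star_V h]
  by_cases hbd : b = d
  · rw [if_pos hbd, (fR_UU h (cpx hR) l).eq, ← mul_assoc (star (UU c j)), U_star_U h]
    by_cases hjl : j = l
    · rw [if_pos hjl, if_pos (by rw [hbd, hjl]), mul_assoc (VV c s a), ← mul_assoc (UU c i),
        U_hT h, mul_assoc (fR s (cpx phiR)), ← (fR_UU h (cpx hR) i).eq,
        ← mul_assoc (fR s (cpx phiR)), ← map_mul, ← mul_assoc (VV c s a), ← fK_mul_VV h,
        mul_assoc (fK c s (cpx phiR * cpx hR)), ← mul_assoc (fK c s cM), ← map_mul, ← mul_assoc cM,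
        cM_mul_phi, cM_mul_h]
    · rw [if_neg hjl, if_neg (by simp [hjl])]; simp
  · rw [if_neg hbd, if_neg (by simp [hbd])]; simp

lemma cM_VV (a b : Fin 3) : fK c s cM * (VV c s a * star (VV c s b))
    = fK c s cM * ∑ i, WW c s (i, a) * star (WW c s (i, b)) := by
  have e : ∀ i, WW c s (i, a) * star (WW c s (i, b))
      = VV c s a * (UU c i * star (UU c i) * star (VV c s b)) := by
    intro i; simp only [WW, star_mul, mul_assoc]
  rw [Finset.sum_congr rfl fun i _ => e i, ← Finset.mul_sum, ← Finset.sum_mul, sum_UU h,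
    ← mul_assoc (VV c s a), ← fK_mul_VV h, mul_assoc, ← mul_assoc (fK c s cM) (fK c s _), ← map_mul,
    cM_mul_phi]

lemma U_V_zero (i : Fin 2) : UU c i * VV c s 0 = VV c s i.castSucc := by
  have e : fT c (cpx gR) * s = s := by rw [fT_s h]; simp [gR_one]
  show uu c i * fT c (cpx gR) * (s * fR s (cpx gR)) = _
  rw [mul_assoc, ← mul_assoc (fT c _) s, e, ← mul_assoc, VV]
  congr 1
  fin_cases i <;> simp [uu, vv, pp_s h]

lemma star_U_V (i : Fin 2) (a : Fin 2) :
    star (UU c i) * VV c s a.castSucc = if i = a then VV c s 0 else 0 := by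
  have e : star (uu c i) * vv c s a.castSucc = if i = a then s else 0 := by
    fin_cases i <;> fin_cases a <;>
      simp [uu, vv, star_pp, pp_s h, cs_star h, ← mul_assoc, pp_c h, Ts h]
  rw [UU, VV, star_mul, star_fn_cpx, mul_assoc, ← mul_assoc (star (uu c i)), e]
  split_ifs
  · rw [← mul_assoc, fT_s h]; simp [gR_one, VV, vv]
  · simp

lemma cM_UU (i j : Fin 2) : fK c s cM * (UU c i * star (UU c j))
    = fK c s cM * ((∑ k, WW c s (k, i.castSucc) * star (WW c s (k, j.castSucc)))
        + WW c s (i, 2) * star (WW c s (j, 2))) := by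
  have hj : ∀ a : Fin 2, VV c s a.castSucc * star (VV c s a.castSucc) * (UU c i * star (UU c j))
      = if i = a then VV c s i.castSucc * star (VV c s j.castSucc) else 0 := by
    intro a
    have e := congrArg star (star_U_V h i a)
    rw [star_mul, star_star] at e
    rw [mul_assoc, ← mul_assoc (star (VV c s a.castSucc)), e]
    split_ifs with hia
    · subst hia; rw [← U_V_zero h j, star_mul]
    · simp
  have hz : VV c s 2 * star (VV c s 2) * (UU c i * star (UU c j))
      = WW c s (i, 2) * star (WW c s (j, 2)) := by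
    have e : VV c s 2 = fR s (cpx sqR * cpx gR) := by rw [map_mul]; rfl
    have e' : star (VV c s 2) = fR s (cpx sqR * cpx gR) := by
      rw [e, ← map_star, star_mul, star_cpx, star_cpx, mul_comm]
    have hc : Commute (star (VV c s 2)) (UU c i * star (UU c j)) :=
      e' ▸ (fR_UU h _ i).mul_right (by
        have := (fR_UU h (cpx sqR * cpx gR) j).star_star
        rwa [← map_star, star_mul, star_cpx, star_cpx, mul_comm (cpx gR)] at this)
    rw [mul_assoc, hc.eq, WW, WW, star_mul]
    simp only [mul_assoc]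
  have key : fK c s cM * (∑ a, VV c s a * star (VV c s a)) = fK c s cM := by
    rw [sum_VV h, ← map_mul, cM_mul_h]
  conv_lhs => rw [← key]
  rw [mul_assoc, Finset.sum_mul, Fin.sum_univ_castSucc, Finset.sum_congr rfl fun a _ => hj a,
    show Fin.last 2 = (2 : Fin 3) from rfl, hz]
  simp only [Finset.sum_ite_eq, Finset.mem_univ, if_true]
  rw [mul_add, mul_add, cM_VV h]

end Vale.Agent.P101.Bridge
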